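import Vale.Agent.P068.Intersection
import Vale.Agent.P068.Duality

/-!
P068: intersection for pairs of matroids with bounded common independent sets, in the pair or in
the pair of duals.
-/

theorem Vale.Agent.Results.P068.BoundedCommonRank.result :
    ∀ (α : Type) (M N : Matroid α), M.E = N.E →
      ((∃ k : ℕ, ∀ I, M.Indep I → N.Indep I → I.Finite ∧ I.ncard ≤ k) ∨
       (∃ k : ℕ, ∀ I, M.dual.Indep I → N.dual.Indep I → I.Finite ∧ I.ncard ≤ k)) →
      ∃ JM JN : Set α, Disjoint JM JN ∧ M.Indep (JM ∪ JN) ∧ N.Indep (JM ∪ JN) ∧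
        M.closure JM ∪ N.closure JN = M.E :=
  fun _ M N hE h => h.elim
    (fun ⟨k, hb⟩ => Vale.Agent.P068.intersection_of_bounded M N hE k hb)
    (fun ⟨k, hb⟩ => Vale.Agent.P068.intersection_of_dual M N hE
      (Vale.Agent.P068.intersection_of_bounded M.dual N.dual hE k hb))
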